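import Mathlib

/-! General commutative algebra for the Zariski–Lipman counterexample. -/

namespace Crest.Agent.H4.ZL

open scoped nonZeroDivisors

/-- Derivations extend along formally étale maps. -/
theorem extend_der {S T : Type} [CommRing S] [CommRing T] [Algebra ℂ S] [Algebra ℂ T]
    [Algebra S T] [IsScalarTower ℂ S T] [Algebra.FormallyEtale S T] (D : Derivation ℂ S T) :
    ∃ D' : Derivation ℂ T T, ∀ s, D' (algebraMap S T s) = D s := by
  have h := KaehlerDifferential.isBaseChange_of_formallyEtale ℂ S T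
  refine ⟨(h.lift D.liftKaehlerDifferential).compDer (KaehlerDifferential.D ℂ T), fun s => ?_⟩
  change h.lift D.liftKaehlerDifferential (KaehlerDifferential.D ℂ T (algebraMap S T s)) = D s
  rw [← KaehlerDifferential.map_D ℂ ℂ S T, h.lift_eq]
  simp

theorem krullDim_integral {R S : Type} [CommRing R] [CommRing S] [Algebra R S]
    [Algebra.IsIntegral R S] [FaithfulSMul R S] : ringKrullDim S = ringKrullDim R := by
  apply le_antisymm
  · refine Order.krullDim_le_of_strictMono (PrimeSpectrum.comap (algebraMap R S)) ?_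
    intro I J h
    exact Ideal.IsIntegral.comap_lt_comap (R := R) (A := S) (I := I.asIdeal) (J := J.asIdeal) h
  · unfold ringKrullDim Order.krullDim
    refine iSup_le fun l => ?_
    obtain ⟨P, -, hP, hPc⟩ := Ideal.exists_ideal_over_prime_of_isIntegral (S := S)
      (RelSeries.head l).asIdeal ⊥ (by
        rw [← RingHom.ker_eq_comap_bot, (RingHom.injective_iff_ker_eq_bot _).1
          (FaithfulSMul.algebraMap_injective R S)]; exact bot_le)
    haveI : P.LiesOver (RelSeries.head l).asIdeal := ⟨hPc.symm⟩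
    obtain ⟨L, hL, -⟩ := Ideal.exists_ltSeries_of_hasGoingUp l P
    exact le_iSup_of_le L (by rw [hL])

/-- The integral closure of a subalgebra, as a `ℂ`-subalgebra. -/
noncomputable def icl {K : Type} [Field K] [Algebra ℂ K] (B : Subalgebra ℂ K) : Subalgebra ℂ K :=
  (integralClosure B K).restrictScalars ℂ

theorem mem_icl {K : Type} [Field K] [Algebra ℂ K] {B : Subalgebra ℂ K} {c : K} :
    c ∈ icl B ↔ IsIntegral B c := Iff.rfl

theorem isFrac_of {K : Type} [Field K] [Algebra ℂ K] (B : Subalgebra ℂ K)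
    (hfr : ∀ c : K, ∃ a ∈ B, ∃ b ∈ B, b ≠ 0 ∧ c * b = a) : IsFractionRing B K := by
  refine IsFractionRing.of_field B K ?_
  intro c
  obtain ⟨a, ha, b, hb, hb0, h⟩ := hfr c
  exact ⟨⟨a, ha⟩, ⟨b, hb⟩, by
    change c = a / b
    rw [eq_div_iff hb0, h]⟩

attribute [local instance] FractionRing.liftAlgebra in
theorem normal_pack {K : Type} [Field K] [Algebra ℂ K] (B : Subalgebra ℂ K) (hfg : B.FG)
    (hfr : ∀ c : K, ∃ a ∈ B, ∃ b ∈ B, b ≠ 0 ∧ c * b = a) (htr : Algebra.trdeg ℂ K = 2) :
    Algebra.FiniteType ℂ (icl B) ∧ ringKrullDim (icl B) = 2 := by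
  haveI : Algebra.FiniteType ℂ B := (Subalgebra.fg_iff_finiteType B).1 hfg
  haveI := isFrac_of B hfr
  obtain ⟨s, g, hinj, hfin⟩ := exists_finite_inj_algHom_of_fg ℂ B
  set P := MvPolynomial (Fin s) ℂ with hP
  letI : Algebra P B := g.toRingHom.toAlgebra
  haveI : IsScalarTower ℂ P B := IsScalarTower.of_algebraMap_eq fun c => (g.commutes c).symm
  haveI : Module.Finite P B := hfin
  letI : Algebra P K := ((algebraMap B K).comp g.toRingHom).toAlgebra
  haveI : IsScalarTower P B K := IsScalarTower.of_algebraMap_eq fun c => rfl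
  haveI : IsScalarTower ℂ P K := IsScalarTower.of_algebraMap_eq fun c => by
    rw [IsScalarTower.algebraMap_apply P B K, ← IsScalarTower.algebraMap_apply ℂ P B,
      ← IsScalarTower.algebraMap_apply ℂ B K]
  haveI : FaithfulSMul P B := (faithfulSMul_iff_algebraMap_injective P B).2 hinj
  haveI : FaithfulSMul P K := (faithfulSMul_iff_algebraMap_injective P K).2
    ((FaithfulSMul.algebraMap_injective B K).comp hinj)
  haveI : Algebra.IsAlgebraic P B := Algebra.IsAlgebraic.of_finite P B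
  haveI : Algebra.IsAlgebraic B K := IsLocalization.isAlgebraic K B⁰
  haveI : Algebra.IsAlgebraic P K := Algebra.IsAlgebraic.trans P B K
  haveI : IsLocalization (Algebra.algebraMapSubmonoid B P⁰) K :=
    inferInstance
  haveI : FiniteDimensional (FractionRing P) K := .of_isLocalization P B P⁰
  haveI : CharZero (FractionRing P) := inferInstance
  -- the closure
  let C := integralClosure B K
  letI : Algebra P C := ((algebraMap B C).comp g.toRingHom).toAlgebra
  haveI : IsScalarTower P B C := IsScalarTower.of_algebraMap_eq fun c => rfl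
  haveI : IsScalarTower P C K := IsScalarTower.of_algebraMap_eq fun c => rfl
  haveI : IsIntegralClosure C P K :=
    ⟨Subtype.val_injective, fun {x} => ⟨fun hx => ⟨⟨x, hx.tower_top⟩, rfl⟩, fun ⟨y, hy⟩ => by
      rw [← hy]; exact isIntegral_trans (A := B) _ y.2⟩⟩
  haveI : Module.Finite P C := IsIntegralClosure.finite P (FractionRing P) K C
  haveI : IsScalarTower ℂ P C := IsScalarTower.of_algebraMap_eq fun c => by
    apply Subtype.ext
    exact IsScalarTower.algebraMap_apply ℂ P K c
  haveI : FaithfulSMul P C := (faithfulSMul_iff_algebraMap_injective P C).2 (by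
    intro a b h
    apply FaithfulSMul.algebraMap_injective P K
    rw [IsScalarTower.algebraMap_apply P C K, h, ← IsScalarTower.algebraMap_apply P C K])
  have hs : s = 2 := by
    have h1 := trdeg_add_eq ℂ P (A := K)
    rw [htr, trdeg_eq_zero (R := P) (A := K), add_zero, MvPolynomial.trdeg_of_isDomain] at h1
    simp at h1
    exact_mod_cast h1
  refine ⟨?_, ?_⟩
  · exact Algebra.FiniteType.trans (R := ℂ) (S := P) (A := C) inferInstance inferInstance
  · change ringKrullDim C = 2
    rw [krullDim_integral (R := P), MvPolynomial.ringKrullDim_of_isNoetherianRing,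
      ringKrullDim_eq_zero_of_field, hs]
    simp

/-- `V` is a valuation ring which is a localisation of `R`. -/
def Ess {F : Type} [Field F] [Algebra ℂ F] (R : Subalgebra ℂ F) (V : ValuationSubring F) : Prop :=
  (∀ r ∈ R, r ∈ V) ∧ ∀ c ∈ V, ∃ b ∈ R, V.valuation b = 1 ∧ b * c ∈ R

theorem mem_of_forall_ess {F : Type} [Field F] [Algebra ℂ F] (R : Subalgebra ℂ F)
    [IsNoetherianRing R] (hfr : ∀ c : F, ∃ a ∈ R, ∃ b ∈ R, b ≠ 0 ∧ c * b = a)
    (hic : ∀ c : F, IsIntegral R c → c ∈ R) (x : F) (h : ∀ V, Ess R V → x ∈ V) : x ∈ R := by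
  by_contra hx
  haveI := isFrac_of R hfr
  let I : F → Ideal R := fun y =>
    { carrier := {r | (r : F) * y ∈ R}
      add_mem' := fun {a b} ha hb => by
        simp only [Set.mem_setOf_eq, Subalgebra.coe_add, add_mul] at *
        exact R.add_mem ha hb
      zero_mem' := by simp
      smul_mem' := fun c a ha => by
        simp only [Set.mem_setOf_eq, smul_eq_mul, Subalgebra.coe_mul, mul_assoc] at *
        exact R.mul_mem c.2 ha }
  have hI : ∀ y (r : R), r ∈ I y ↔ (r : F) * y ∈ R := fun _ _ => Iff.rfl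
  obtain ⟨P, ⟨y, ⟨c₀, hc₀, hy⟩, hyR, rfl⟩, hmax⟩ :=
    (set_has_maximal_iff_noetherian.2 (inferInstance : IsNoetherian R R))
      {J | ∃ y, (∃ c ∈ R, y = c * x) ∧ y ∉ R ∧ J = I y} ⟨I x, x, ⟨1, R.one_mem, by simp⟩, hx, rfl⟩
  have hprime : (I y).IsPrime := by
    refine ⟨fun ht => hyR ?_, fun {r s} hrs => ?_⟩
    · have : (1 : R) ∈ I y := ht ▸ Submodule.mem_top
      simpa [hI] using this
    · by_contra hcon
      push Not at hcon
      have hs : (s : F) * y ∉ R := hcon.2
      have hle : I y ≤ I (s * y) := fun a ha => by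
        rw [hI] at *
        rw [mul_left_comm]; exact R.mul_mem s.2 ha
      have := hmax (I (s * y)) ⟨s * y, ⟨s * c₀, R.mul_mem s.2 hc₀, by rw [hy, mul_assoc]⟩, hs, rfl⟩
      have heq : I y = I (s * y) := (eq_or_lt_of_le hle).resolve_right this
      apply hcon.1
      rw [heq, hI, ← mul_assoc]
      exact hrs
  set P := I y with hP
  obtain ⟨π, hπ, hπy⟩ : ∃ π ∈ P, (π : F) * y * y ∉ R := by
    by_contra hcon
    push Not at hcon
    apply hyR
    apply hic
    refine isIntegral_of_smul_mem_submodule (M := F)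
      (Submodule.map (Algebra.linearMap R F) P) ?_ ((IsNoetherian.noetherian P).map _) y ?_
    · obtain ⟨a, ha, b, hb, hb0, hab⟩ := hfr y
      intro h0
      have : (b : F) ∈ Submodule.map (Algebra.linearMap R F) P :=
        ⟨⟨b, hb⟩, by rw [SetLike.mem_coe, hI, mul_comm, hab]; exact ha, rfl⟩
      rw [h0] at this
      exact hb0 this
    · rintro _ ⟨p, hp, rfl⟩
      refine ⟨⟨(p : F) * y, hp⟩, hcon p hp, ?_⟩
      simp [mul_comm]
  have hle : P.primeCompl ≤ R⁰ := P.primeCompl_le_nonZeroDivisors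
  let W := Localization.subalgebra.ofField F P.primeCompl hle
  have hW : ∀ c, c ∈ W ↔ ∃ b : R, b ∉ P ∧ (b : F) * c ∈ R := by
    intro c
    constructor
    · rintro ⟨a, s, hs, rfl⟩
      refine ⟨s, hs, ?_⟩
      have : (s : F) ≠ 0 := fun h0 => hs (by
        have : s = 0 := Subtype.ext h0
        rw [this]; exact P.zero_mem)
      change (s : F) * ((a : F) * (s : F)⁻¹) ∈ R
      rw [mul_left_comm, mul_inv_cancel₀ this, mul_one]; exact a.2
    · rintro ⟨b, hb, hbc⟩
      have : (b : F) ≠ 0 := fun h0 => hb (by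
        have : b = 0 := Subtype.ext h0
        rw [this]; exact P.zero_mem)
      refine ⟨⟨_, hbc⟩, b, hb, ?_⟩
      change c = (b : F) * c * (b : F)⁻¹
      field_simp
  haveI : IsLocalization.AtPrime W P := inferInstanceAs (IsLocalization P.primeCompl W)
  haveI : IsLocalRing W := IsLocalization.AtPrime.isLocalRing W P
  haveI : IsNoetherianRing W := IsLocalization.isNoetherianRing P.primeCompl W inferInstance
  have hy0 : y ≠ 0 := fun h0 => hyR (h0 ▸ R.zero_mem)
  have hu : (⟨(π : F) * y, hπ⟩ : R) ∉ P := hπy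
  have hprin : (IsLocalRing.maximalIdeal W).IsPrincipal := by
    refine ⟨algebraMap R W π, ?_⟩
    rw [← IsLocalization.AtPrime.map_eq_maximalIdeal P W]
    apply le_antisymm
    · rw [Ideal.map_le_iff_le_comap]
      intro p hp
      rw [Ideal.mem_comap, Ideal.submodule_span_eq, Ideal.mem_span_singleton']
      have hπ0 : (π : F) ≠ 0 := fun h0 => hπy (by simp [h0])
      refine ⟨⟨(p : F) / π, (hW _).2 ⟨_, hu, ?_⟩⟩, Subtype.ext ?_⟩
      · have : (π : F) * y * (p / π) = p * y := by field_simp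
        change (π : F) * y * (p / π) ∈ R
        rw [this]; exact hp
      · change (p : F) / π * π = p
        field_simp
    · rw [Ideal.submodule_span_eq, Ideal.span_singleton_le_iff_mem]
      exact Ideal.mem_map_of_mem _ hπ
  have hval : ValuationRing W :=
    ((tfae_of_isNoetherianRing_of_isLocalRing_of_isDomain W).out 4 1).1 hprin
  let V : ValuationSubring F := ValuationSubring.ofSubring W.toSubring (fun c => by
    rcases ValuationRing.isInteger_or_isInteger W c with ⟨a, ha⟩ | ⟨a, ha⟩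
    · left; rw [← ha]; exact a.2
    · right; rw [← ha]; exact a.2)
  have hV : ∀ c, c ∈ V ↔ ∃ b : R, b ∉ P ∧ (b : F) * c ∈ R := hW
  have h1 : (1 : R) ∉ P := fun h => hprime.ne_top ((Ideal.eq_top_iff_one _).2 h)
  have hRV : ∀ r ∈ R, r ∈ V := fun r hr => (hV r).2 ⟨1, h1, by simpa using hr⟩
  have hxV := h V ⟨hRV, fun c hc => by
    obtain ⟨b, hb, hbc⟩ := (hV c).1 hc
    have hb0 : (b : F) ≠ 0 := fun h0 => hb (by
        have : b = 0 := Subtype.ext h0
        rw [this]; exact P.zero_mem)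
    refine ⟨b, b.2, ?_, hbc⟩
    have h2 : (b : F)⁻¹ ∈ V := (hV _).2 ⟨b, hb, by rw [mul_inv_cancel₀ hb0]; exact R.one_mem⟩
    apply le_antisymm ((V.valuation_le_one_iff _).2 (hRV _ b.2))
    have := (V.valuation_le_one_iff _).2 h2
    rwa [map_inv₀, inv_le_one₀ (zero_lt_iff.2 ((map_ne_zero _).2 hb0))] at this⟩
  obtain ⟨b, hb, hbx⟩ := (hV x).1 hxV
  apply hb
  rw [hI, hy, mul_left_comm]
  exact R.mul_mem hc₀ hbx

/-- Final assembly. -/
theorem final {K : Type} [Field K] [Algebra ℂ K] (R : Subalgebra ℂ K)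
    (hfr : ∀ c : K, ∃ a ∈ R, ∃ b ∈ R, b ≠ 0 ∧ c * b = a) (hft : Algebra.FiniteType ℂ R)
    (hic : ∀ c : K, IsIntegral R c → c ∈ R) (hdim : ringKrullDim R = 2)
    (ξ₁ ξ₂ : Derivation ℂ K K) (h₁ : ∀ a ∈ R, ξ₁ a ∈ R) (h₂ : ∀ a ∈ R, ξ₂ a ∈ R)
    (hspan : ∀ D : Derivation ℂ K K, ∃ c₁ c₂ : K, ∀ a, D a = c₁ * ξ₁ a + c₂ * ξ₂ a)
    (hind : ∀ c₁ c₂ : K, (∀ a ∈ R, c₁ * ξ₁ a + c₂ * ξ₂ a = 0) → c₁ = 0 ∧ c₂ = 0)
    (hgen : ∀ c₁ c₂ : K, (∀ a ∈ R, c₁ * ξ₁ a + c₂ * ξ₂ a ∈ R) → c₁ ∈ R ∧ c₂ ∈ R)
    (I : Ideal R) (hI : I ≠ ⊤) (hI₁ : ∀ a (ha : a ∈ R), (⟨ξ₁ a, h₁ a ha⟩ : R) ∈ I)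
    (hI₂ : ∀ a (ha : a ∈ R), (⟨ξ₂ a, h₂ a ha⟩ : R) ∈ I) :
    ∃ (A : Type) (_ : CommRing A) (_ : Algebra ℂ A),
      IsDomain A ∧ Algebra.FiniteType ℂ A ∧ IsIntegrallyClosed A ∧
      ringKrullDim A = 2 ∧
      Nonempty (Derivation ℂ A A ≃ₗ[A] (Fin 2 → A)) ∧
      ∃ (m : Ideal A) (_ : m.IsMaximal), ¬ IsRegularLocalRing (Localization.AtPrime m) := by
  haveI := isFrac_of R hfr
  haveI : IsNoetherianRing R := Algebra.FiniteType.isNoetherianRing ℂ R
  let res : ∀ (ξ : Derivation ℂ K K), (∀ a ∈ R, ξ a ∈ R) → Derivation ℂ R R := fun ξ h =>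
    { toFun := fun a => ⟨ξ a, h a a.2⟩
      map_add' := fun a b => Subtype.ext (by simp)
      map_smul' := fun c a => Subtype.ext (by simp)
      map_one_eq_zero' := Subtype.ext (by simp)
      leibniz' := fun a b => Subtype.ext (by simp) }
  let e₁ := res ξ₁ h₁
  let e₂ := res ξ₂ h₂
  have he₁ : ∀ a : R, (e₁ a : K) = ξ₁ a := fun _ => rfl
  have he₂ : ∀ a : R, (e₂ a : K) = ξ₂ a := fun _ => rfl
  refine ⟨R, inferInstance, inferInstance, inferInstance, hft, ?_, hdim, ?_, ?_⟩
  · rw [isIntegrallyClosed_iff K]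
    intro x hx
    exact ⟨⟨x, hic x hx⟩, rfl⟩
  · let Φ : (Fin 2 → R) →ₗ[R] Derivation ℂ R R :=
      { toFun := fun c => c 0 • e₁ + c 1 • e₂
        map_add' := fun a b => by simp only [Pi.add_apply, add_smul]; abel
        map_smul' := fun a b => by simp [mul_smul] }
    refine ⟨(LinearEquiv.ofBijective Φ ⟨?_, ?_⟩).symm⟩
    · rw [injective_iff_map_eq_zero]
      intro c hc
      have := hind (c 0) (c 1) (fun a ha => by
        have := congrArg (fun D : Derivation ℂ R R => (D ⟨a, ha⟩ : K)) hc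
        simpa [Φ, he₁, he₂] using this)
      funext i
      fin_cases i
      · exact Subtype.ext this.1
      · exact Subtype.ext this.2
    · intro D
      haveI := Algebra.FormallyEtale.of_isLocalization (Rₘ := K) R⁰
      obtain ⟨D', hD'⟩ := extend_der (S := R) (T := K) ((Algebra.linearMap R K).compDer D)
      obtain ⟨c₁, c₂, hc⟩ := hspan D'
      have hD'' : ∀ a : R, D' a = D a := hD'
      obtain ⟨h1, h2⟩ := hgen c₁ c₂ (fun a ha => by
        rw [← hc, hD'' ⟨a, ha⟩]; exact (D ⟨a, ha⟩).2)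
      refine ⟨![⟨c₁, h1⟩, ⟨c₂, h2⟩], ?_⟩
      ext a
      simp [Φ, he₁, he₂, ← hc, hD'']
  · obtain ⟨m, hm, hIm⟩ := Ideal.exists_le_maximal I hI
    refine ⟨m, hm, fun hreg => ?_⟩
    set L := Localization.AtPrime m
    have hsp : (IsLocalRing.maximalIdeal L).spanFinrank ≤ 2 := by
      have h1 := hreg.spanFinrank_maximalIdeal
      rw [IsLocalization.AtPrime.ringKrullDim_eq_height m L] at h1
      have h2 := m.height_le_ringKrullDim_of_isPrime
      rw [← h1, hdim] at h2
      exact_mod_cast h2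
    obtain ⟨x, hx, y, hy, hxy⟩ : ∃ x ∈ m, ∃ y ∈ m, ∀ a ∈ m, ∃ s ∉ m, ∃ α β : R,
        s * a = α * x + β * y := by
      obtain ⟨T, hT, hTs⟩ := (IsNoetherian.noetherian
        (IsLocalRing.maximalIdeal L)).exists_span_finset_card_eq_spanFinrank
      obtain ⟨x', hx', y', hy', hT'⟩ : ∃ x' ∈ IsLocalRing.maximalIdeal L,
          ∃ y' ∈ IsLocalRing.maximalIdeal L, (T : Set L) ⊆ {x', y'} := by
        have hTm : ∀ t ∈ T, t ∈ IsLocalRing.maximalIdeal L := fun t ht =>
          hTs ▸ Submodule.subset_span ht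
        have hc : T.card ≤ 2 := hT ▸ hsp
        have : T.card = 0 ∨ T.card = 1 ∨ T.card = 2 := by omega
        rcases this with h | h | h
        · rw [Finset.card_eq_zero] at h
          exact ⟨0, Submodule.zero_mem _, 0, Submodule.zero_mem _, by simp [h]⟩
        · obtain ⟨a, rfl⟩ := Finset.card_eq_one.1 h
          exact ⟨a, hTm a (by simp), a, hTm a (by simp), by simp⟩
        · classical
          obtain ⟨a, b, -, rfl⟩ := Finset.card_eq_two.1 h
          exact ⟨a, hTm a (by simp), b, hTm b (by simp), by simp⟩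
      obtain ⟨x, sx, rfl⟩ := IsLocalization.exists_mk'_eq m.primeCompl x'
      obtain ⟨y, sy, rfl⟩ := IsLocalization.exists_mk'_eq m.primeCompl y'
      refine ⟨x, (IsLocalization.AtPrime.mk'_mem_maximal_iff L m x sx).1 hx', y,
        (IsLocalization.AtPrime.mk'_mem_maximal_iff L m y sy).1 hy', fun a ha => ?_⟩
      have hmem : algebraMap R L a ∈ Ideal.map (algebraMap R L) (Ideal.span {x, y}) := by
        have h1 : algebraMap R L a ∈ IsLocalRing.maximalIdeal L :=
          (IsLocalization.AtPrime.to_map_mem_maximal_iff L m a).2 ha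
        rw [← hTs] at h1
        refine (Submodule.span_le.2 ?_ : Submodule.span L (T : Set L) ≤ _) h1
        intro t ht
        rcases hT' ht with rfl | rfl
        · rw [IsLocalization.mk'_eq_mul_mk'_one]
          exact Ideal.mul_mem_right _ _ (Ideal.mem_map_of_mem _ (Ideal.subset_span (by simp)))
        · rw [IsLocalization.mk'_eq_mul_mk'_one]
          exact Ideal.mul_mem_right _ _ (Ideal.mem_map_of_mem _ (Ideal.subset_span (by simp)))
      obtain ⟨s, hs, hsa⟩ := (IsLocalization.algebraMap_mem_map_algebraMap_iff m.primeCompl L _ a).1 hmem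
      obtain ⟨α, β, h⟩ := Ideal.mem_span_pair.1 hsa
      exact ⟨s, hs, α, β, h.symm⟩
    let w : R → R × R := fun a => (e₁ a, e₂ a)
    let M : Submodule R (R × R) := Submodule.span R (Set.range w)
    let N : Submodule R (R × R) := Submodule.span R {w x, w y}
    have hwM : ∀ a, w a ∈ M := fun a => Submodule.subset_span ⟨a, rfl⟩
    have hMle : M ≤ N ⊔ m • M := by
      refine Submodule.span_le.2 ?_
      rintro _ ⟨a, rfl⟩
      obtain ⟨c, hc⟩ : ∃ c : ℂ, a - algebraMap ℂ R c ∈ m := by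
        letI := Ideal.Quotient.field m
        haveI : Module.Finite ℂ (R ⧸ m) := finite_of_finite_type_of_isJacobsonRing ℂ (R ⧸ m)
        obtain ⟨c, hc⟩ := (IsAlgClosed.algebraMap_bijective_of_isIntegral (k := ℂ)
          (K := R ⧸ m)).2 (Ideal.Quotient.mk m a)
        refine ⟨c, ?_⟩
        rw [← Ideal.Quotient.eq, ← hc]; rfl
      obtain ⟨s, hs, α, β, h⟩ := hxy _ hc
      obtain ⟨t, u, hu, htu⟩ := hm.exists_inv hs
      set a' := a - algebraMap ℂ R c with ha'
      have hwa : w a = w a' := by simp [w, ha']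
      have key : s • w a' = α • w x + β • w y + (x • w α + y • w β - a' • w s) := by
        have k1 := congrArg e₁ h
        have k2 := congrArg e₂ h
        simp only [Derivation.leibniz, map_add, smul_eq_mul] at k1 k2
        apply Prod.ext
        · simp only [w, Prod.smul_mk, Prod.mk_add_mk, Prod.mk_sub_mk, smul_eq_mul]
          linear_combination k1
        · simp only [w, Prod.smul_mk, Prod.mk_add_mk, Prod.mk_sub_mk, smul_eq_mul]
          linear_combination k2
      have : w a = t • (s • w a') + u • w a' := by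
        rw [hwa, smul_smul, ← add_smul, htu, one_smul]
      rw [SetLike.mem_coe, this, key]
      refine Submodule.add_mem _ (Submodule.smul_mem _ _ (Submodule.add_mem _
        (Submodule.mem_sup_left ?_) (Submodule.mem_sup_right ?_))) (Submodule.mem_sup_right ?_)
      · exact Submodule.add_mem _ (Submodule.smul_mem _ _ (Submodule.subset_span (by simp)))
          (Submodule.smul_mem _ _ (Submodule.subset_span (by simp)))
      · exact Submodule.sub_mem _ (Submodule.add_mem _ (Submodule.smul_mem_smul hx (hwM _))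
          (Submodule.smul_mem_smul hy (hwM _))) (Submodule.smul_mem_smul hc (hwM _))
      · exact Submodule.smul_mem_smul hu (hwM _)
    obtain ⟨r, hr, hrM⟩ := Submodule.exists_sub_one_mem_and_smul_le_of_fg_of_le_sup
      (IsNoetherian.noetherian M) le_rfl hMle
    have hr0 : (r : K) ≠ 0 := by
      intro h0
      have : r = 0 := Subtype.ext h0
      rw [this, zero_sub, neg_mem_iff] at hr
      exact hm.ne_top ((Ideal.eq_top_iff_one _).2 hr)
    have hab : ∀ a ∈ R, ∃ α ∈ R, ∃ β ∈ R, r * ξ₁ a = α * ξ₁ x + β * ξ₁ y ∧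
        r * ξ₂ a = α * ξ₂ x + β * ξ₂ y := by
      intro a ha
      have : r • w ⟨a, ha⟩ ∈ N := hrM (Submodule.smul_mem_pointwise_smul _ _ _ (hwM _))
      obtain ⟨α, β, h⟩ := Submodule.mem_span_pair.1 this
      refine ⟨α, α.2, β, β.2, ?_, ?_⟩
      · have := congrArg (fun p : R × R => (p.1 : K)) h
        simpa [w, he₁] using this.symm
      · have := congrArg (fun p : R × R => (p.2 : K)) h
        simpa [w, he₂] using this.symm
    by_cases hΔ : ξ₁ x * ξ₂ y - ξ₂ x * ξ₁ y = 0
    · have k1 := hind (ξ₂ x) (-ξ₁ x) (fun a ha => by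
        obtain ⟨α, -, β, -, h1, h2⟩ := hab a ha
        apply mul_left_cancel₀ hr0
        linear_combination ξ₂ x * h1 - ξ₁ x * h2 - β * hΔ)
      have k2 := hind (ξ₂ y) (-ξ₁ y) (fun a ha => by
        obtain ⟨α, -, β, -, h1, h2⟩ := hab a ha
        apply mul_left_cancel₀ hr0
        linear_combination ξ₂ y * h1 - ξ₁ y * h2 + α * hΔ)
      have k3 := hind 1 0 (fun a ha => by
        obtain ⟨α, -, β, -, h1, h2⟩ := hab a ha
        apply mul_left_cancel₀ hr0
        linear_combination h1 - α * k1.2 - β * k2.2)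
      exact one_ne_zero k3.1
    · obtain ⟨Δ, hΔe⟩ : ∃ Δ, Δ = ξ₁ x * ξ₂ y - ξ₂ x * ξ₁ y := ⟨_, rfl⟩
      rw [← hΔe] at hΔ
      obtain ⟨h1, h2⟩ := hgen (r * ξ₂ y / Δ) (-(r * ξ₁ y) / Δ) (fun a ha => by
          obtain ⟨α, hα, β, -, h1, h2⟩ := hab a ha
          convert hα using 1
          field_simp
          linear_combination ξ₂ y * h1 - ξ₁ y * h2 - α * hΔe)
      have : r = ⟨_, h1⟩ * e₁ x + ⟨_, h2⟩ * e₂ x := by
        apply Subtype.ext
        simp only [Subalgebra.coe_add, Subalgebra.coe_mul, he₁, he₂]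
        field_simp
        linear_combination hΔe
      have hrm : r ∈ m := by
        rw [this]
        exact m.add_mem (m.mul_mem_left _ (hIm (hI₁ _ x.2))) (m.mul_mem_left _ (hIm (hI₂ _ x.2)))
      have := m.sub_mem hrm hr
      rw [sub_sub_cancel] at this
      exact hm.ne_top ((Ideal.eq_top_iff_one _).2 this)

end Crest.Agent.H4.ZL
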