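import Crest.Agent.H4.ZL.Z10

/-! The numerical data. -/

namespace Crest.Agent.H4.ZL

variable {F : Type} [Field F] [Algebra ℂ F] [CharZero F]

theorem der_rat (η : Derivation ℂ F F) (q : ℚ) : η (q : F) = 0 := by
  rw [← map_ratCast (algebraMap ℂ F), Derivation.map_algebraMap]

macro "amem" : tactic => `(tactic| repeat (first | exact rat_mem _ _ | exact A1_self _ | exact one_mem _ | apply add_mem | apply mul_mem | apply pow_mem))

def P4 (τ : F) : F := ((((1 : ℚ) : F) * τ ^ 2 + ((559 / 70 : ℚ) : F) * τ + ((98999017 / 3346700 : ℚ) : F)) * τ + ((509341064908 / 6377973525 : ℚ) : F)) * τ + ((782044550687074363 / 9757789255368000 : ℚ) : F)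
def dP4 (τ : F) : F := (((4 : ℚ) : F) * τ ^ 2 + ((1677 / 70 : ℚ) : F) * τ + ((98999017 / 1673350 : ℚ) : F)) * τ + ((509341064908 / 6377973525 : ℚ) : F)
theorem jP4 {τ : F} (hτ : τ ≠ 0) : Jet τ 4 (P4 τ) 1 (559 / 70) (98999017 / 3346700) :=
  ((Jet.quad hτ (1) (559 / 70) (98999017 / 3346700)).horner hτ (509341064908 / 6377973525)).horner hτ (782044550687074363 / 9757789255368000)
theorem dP4_mem (τ : F) : dP4 τ ∈ A1 τ := by unfold dP4; amem
theorem dP4_eq (η : Derivation ℂ F F) (τ : F) : η (P4 τ) = dP4 τ * η τ := by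
  simp only [P4, dP4, map_add, Derivation.leibniz, Derivation.leibniz_pow, der_rat, smul_eq_mul, nsmul_eq_mul]
  push_cast; ring

def Pb (τ : F) : F := ((1 : ℚ) : F) * τ + ((117 / 70 : ℚ) : F)
def dPb (τ : F) : F := ((1 : ℚ) : F)
theorem jPb {τ : F} (hτ : τ ≠ 0) : Jet τ 1 (Pb τ) 1 (117 / 70) (0) :=
  Jet.lin hτ (1) (117 / 70)
theorem dPb_mem (τ : F) : dPb τ ∈ A1 τ := by unfold dPb; amem
theorem dPb_eq (η : Derivation ℂ F F) (τ : F) : η (Pb τ) = dPb τ * η τ := by
  simp only [Pb, dPb, map_add, Derivation.leibniz, Derivation.leibniz_pow, der_rat, smul_eq_mul, nsmul_eq_mul]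
  push_cast; ring

def Pp (τ : F) : F := ((1 : ℚ) : F) * τ ^ 2 + ((-169 / 175 : ℚ) : F) * τ + ((12252669 / 20916875 : ℚ) : F)
def dPp (τ : F) : F := ((2 : ℚ) : F) * τ + ((-169 / 175 : ℚ) : F)
theorem jPp {τ : F} (hτ : τ ≠ 0) : Jet τ 2 (Pp τ) 1 (-169 / 175) (12252669 / 20916875) :=
  Jet.quad hτ (1) (-169 / 175) (12252669 / 20916875)
theorem dPp_mem (τ : F) : dPp τ ∈ A1 τ := by unfold dPp; amem
theorem dPp_eq (η : Derivation ℂ F F) (τ : F) : η (Pp τ) = dPp τ * η τ := by
  simp only [Pp, dPp, map_add, Derivation.leibniz, Derivation.leibniz_pow, der_rat, smul_eq_mul, nsmul_eq_mul]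
  push_cast; ring

def P0 (τ : F) : F := ((1 : ℚ) : F) * τ ^ 2 + ((3887 / 350 : ℚ) : F) * τ + ((2271761713 / 41833750 : ℚ) : F)
def dP0 (τ : F) : F := ((2 : ℚ) : F) * τ + ((3887 / 350 : ℚ) : F)
theorem jP0 {τ : F} (hτ : τ ≠ 0) : Jet τ 2 (P0 τ) 1 (3887 / 350) (2271761713 / 41833750) :=
  Jet.quad hτ (1) (3887 / 350) (2271761713 / 41833750)
theorem dP0_mem (τ : F) : dP0 τ ∈ A1 τ := by unfold dP0; amem
theorem dP0_eq (η : Derivation ℂ F F) (τ : F) : η (P0 τ) = dP0 τ * η τ := by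
  simp only [P0, dP0, map_add, Derivation.leibniz, Derivation.leibniz_pow, der_rat, smul_eq_mul, nsmul_eq_mul]
  push_cast; ring

def PgA (τ : F) : Fin 3 → F := ![τ, P4 τ, Pb τ]
def PgB (τ : F) : Fin 3 → F := ![Pp τ, τ, P0 τ]
def dPA (τ : F) : Fin 3 → F := ![1, dP4 τ, dPb τ]
def dPB (τ : F) : Fin 3 → F := ![dPp τ, 1, dP0 τ]
def kA : Fin 3 → ℕ := ![78, 13, 39]
def kB : Fin 3 → ℕ := ![42, 42, 28]
def t0 (τ : F) : F := ((1 : ℚ) : F) * τ + ((1 : ℚ) : F)
def b0 (τ : F) : F := ((-169 : ℚ) : F)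
def mu0 : Fin 3 → ℕ := ![2, 1, 1]
def m0 : Fin 3 → ℕ := ![21, 9, 34]
def t1 (τ : F) : F := ((1 : ℚ) : F) * τ + ((52 / 35 : ℚ) : F)
def b1 (τ : F) : F := ((-182 : ℚ) : F)
def mu1 : Fin 3 → ℕ := ![2, 1, 1]
def m1 : Fin 3 → ℕ := ![31, 5, 12]
def t2 (τ : F) : F := ((1 : ℚ) : F) * τ ^ 2 + ((682 / 683 : ℚ) : F) * τ + ((0 : ℚ) : F)
def b2 (τ : F) : F := ((-169 : ℚ) : F) * τ + ((169 / 683 : ℚ) : F)
def mu2 : Fin 3 → ℕ := ![1, 1, 1]
def m2 : Fin 3 → ℕ := ![14, 10, 37]
def t3 (τ : F) : F := ((1 : ℚ) : F) * τ ^ 2 + ((12259 / 23905 : ℚ) : F) * τ + ((-173563 / 119525 : ℚ) : F)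
def b3 (τ : F) : F := ((-182 : ℚ) : F) * τ + ((604682 / 3415 : ℚ) : F)
def mu3 : Fin 3 → ℕ := ![1, 2, 1]
def m3 : Fin 3 → ℕ := ![11, 37, 16]

theorem hn0 : hn 0 = (-1411078 / 30625) := by simp [hn, Pn]; norm_num
theorem hn1 : hn 1 = (1210704924 / 5359375) := by simp [hn, Pn]; norm_num
theorem hn2 : hn 2 = (1411078 / 30625) := by simp [hn, Pn]; norm_num
theorem hn3 : hn 3 = (-1210704924 / 5359375) := by simp [hn, Pn]; norm_num
theorem jR00 {τ : F} (hτ : τ ≠ 0) : Jet τ (2 + 3) (Rl (PgA τ) (dPA τ) kA mu0 (t0 τ) (b0 τ) (hn 0)) (-5175625 / 7710130192)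
    ((-61210342375 / 10532037842272) + (-22214734609010125 / 7646259473489472) * Pn 0) ((-171548689774598825 / 7430763447198744608) + (19694670287564545 / 3823129736744736) * Pn 0 + (-22118238876339662875 / 10789468525332577170816) * Pn 0 ^ 2) := by
  have e : Rl (PgA τ) (dPA τ) kA mu0 (t0 τ) (b0 τ) (hn 0) =
      (((((-5175625 / 7710130192 : ℚ) : F) * τ ^ 2 + ((-32590297683125 / 11195109038784 : ℚ) : F) * τ + ((78394284346638455 / 15292518946978944 : ℚ) : F)) * τ + ((101193695385268103683 / 1998222475738582016 : ℚ) : F)) * τ + ((396496587198346702041 / 6993778665085037056 : ℚ) : F)) * τ + ((0 : ℚ) : F) := by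
    simp only [Ql, Rl, PgA, dPA, kA, mu0, t0, b0, hn0, P4, dP4, Pb, dPb, Pp, dPp, P0, dP0, PP, Dd, Matrix.cons_val_zero, Matrix.cons_val_one,
      Matrix.cons_val_two, Matrix.head_cons, Matrix.tail_cons, Pi.one_apply, Matrix.cons_val]
    push_cast; ring
  rw [e]
  exact ((((Jet.quad hτ (-5175625 / 7710130192) (-32590297683125 / 11195109038784) (78394284346638455 / 15292518946978944)).horner hτ (101193695385268103683 / 1998222475738582016)).horner hτ (396496587198346702041 / 6993778665085037056)).horner hτ (0)).congr rfl rfl (by simp [Pn]; norm_num) (by simp [Pn]; norm_num)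

theorem jQ00 {τ : F} (hτ : τ ≠ 0) : Jet τ (5 + 3) (Ql τ (PgA τ) (dPA τ) kA mu0 (t0 τ) (b0 τ) (hn 0)) (1)
    ((509483 / 47810) + (1 / 1366) * Pn 0) ((31148456163331 / 590306842825) + (7267 / 191240) * Pn 0 + (-181035673 / 963766274) * Pn 0 ^ 2) := by
  have e : Ql τ (PgA τ) (dPA τ) kA mu0 (t0 τ) (b0 τ) (hn 0) =
      ((((((((1 : ℚ) : F) * τ ^ 2 + ((373 / 35 : ℚ) : F) * τ + ((352184677 / 6693400 : ℚ) : F)) * τ + ((312636500255209 / 1020475764000 : ℚ) : F)) * τ + ((104141735526112037 / 975778925536800 : ℚ) : F)) * τ + ((-217021759158828189761 / 109287239660121600 : ℚ) : F)) * τ + ((-376163428880482768603 / 151787832861280000 : ℚ) : F)) * τ + ((0 : ℚ) : F)) * τ + ((0 : ℚ) : F) := by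
    simp only [Ql, Rl, PgA, dPA, kA, mu0, t0, b0, hn0, P4, dP4, Pb, dPb, Pp, dPp, P0, dP0, PP, Dd, Matrix.cons_val_zero, Matrix.cons_val_one,
      Matrix.cons_val_two, Matrix.head_cons, Matrix.tail_cons, Pi.one_apply, Matrix.cons_val]
    push_cast; ring
  rw [e]
  exact (((((((Jet.quad hτ (1) (373 / 35) (352184677 / 6693400)).horner hτ (312636500255209 / 1020475764000)).horner hτ (104141735526112037 / 975778925536800)).horner hτ (-217021759158828189761 / 109287239660121600)).horner hτ (-376163428880482768603 / 151787832861280000)).horner hτ (0)).horner hτ (0)).congr rfl rfl (by simp [Pn]; norm_num) (by simp [Pn]; norm_num)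

theorem jG00 {τ : F} (hτ : τ ≠ 0) : Jet τ (88 + 3) (PP (PgA τ) m0) (1)
    ((676 / 5) + (-13 / 2) * Pn 0) ((3059240123258709 / 337318195900) + (-23920091 / 27320) * Pn 0 + (76568253203 / 3855065096) * Pn 0 ^ 2) :=
  ((((Jet.self hτ).pow 21).mul ((jP4 hτ).pow 9)).mul ((jPb hτ).pow 34)).congr rfl
    (by norm_num) (by simp [Pn]; norm_num) (by simp [Pn]; norm_num)

theorem jR01 {τ : F} (hτ : τ ≠ 0) : Jet τ (2 + 3) (Rl (PgB τ) (dPB τ) kB mu1 (t1 τ) (b1 τ) (hn 1)) (-5175625 / 7710130192)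
    ((-61210342375 / 10532037842272) + (-22214734609010125 / 7646259473489472) * Pn 1) ((-171548689774598825 / 7430763447198744608) + (19694670287564545 / 3823129736744736) * Pn 1 + (-22118238876339662875 / 10789468525332577170816) * Pn 1 ^ 2) := by
  have e : Rl (PgB τ) (dPB τ) kB mu1 (t1 τ) (b1 τ) (hn 1) =
      (((((-5175625 / 7710130192 : ℚ) : F) * τ ^ 2 + ((-604286508735 / 42405716056 : ℚ) : F) * τ + ((3647102221312329 / 144815520331240 : ℚ) : F)) * τ + ((-156223790113837381 / 7240776016562000 : ℚ) : F)) * τ + ((2426728729571556627321 / 275371648802591425000 : ℚ) : F)) * τ + ((-31004982715853596956363 / 24095019270226749687500 : ℚ) : F) := by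
    simp only [Ql, Rl, PgB, dPB, kB, mu1, t1, b1, hn1, P4, dP4, Pb, dPb, Pp, dPp, P0, dP0, PP, Dd, Matrix.cons_val_zero, Matrix.cons_val_one,
      Matrix.cons_val_two, Matrix.head_cons, Matrix.tail_cons, Pi.one_apply, Matrix.cons_val]
    push_cast; ring
  rw [e]
  exact ((((Jet.quad hτ (-5175625 / 7710130192) (-604286508735 / 42405716056) (3647102221312329 / 144815520331240)).horner hτ (-156223790113837381 / 7240776016562000)).horner hτ (2426728729571556627321 / 275371648802591425000)).horner hτ (-31004982715853596956363 / 24095019270226749687500)).congr rfl rfl (by simp [Pn]; norm_num) (by simp [Pn]; norm_num)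

theorem jQ01 {τ : F} (hτ : τ ≠ 0) : Jet τ (5 + 3) (Ql τ (PgB τ) (dPB τ) kB mu1 (t1 τ) (b1 τ) (hn 1)) (1)
    ((509483 / 47810) + (1 / 1366) * Pn 1) ((31148456163331 / 590306842825) + (7267 / 191240) * Pn 1 + (-181035673 / 963766274) * Pn 1 ^ 2) := by
  have e : Ql τ (PgB τ) (dPB τ) kB mu1 (t1 τ) (b1 τ) (hn 1) =
      ((((((((1 : ℚ) : F) * τ ^ 2 + ((533 / 50 : ℚ) : F) * τ + ((4052645519 / 83667500 : ℚ) : F)) * τ + ((-11895998318048 / 3660453125 : ℚ) : F)) * τ + ((2480069584770759839 / 437515659765625 : ℚ) : F)) * τ + ((-29876249050365067597 / 6250223710937500 : ℚ) : F)) * τ + ((17605645419806025424550994 / 9151460365860107421875 : ℚ) : F)) * τ + ((-84240538038974222930438271 / 320301112805103759765625 : ℚ) : F)) * τ + ((0 : ℚ) : F) := by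
    simp only [Ql, Rl, PgB, dPB, kB, mu1, t1, b1, hn1, P4, dP4, Pb, dPb, Pp, dPp, P0, dP0, PP, Dd, Matrix.cons_val_zero, Matrix.cons_val_one,
      Matrix.cons_val_two, Matrix.head_cons, Matrix.tail_cons, Pi.one_apply, Matrix.cons_val]
    push_cast; ring
  rw [e]
  exact (((((((Jet.quad hτ (1) (533 / 50) (4052645519 / 83667500)).horner hτ (-11895998318048 / 3660453125)).horner hτ (2480069584770759839 / 437515659765625)).horner hτ (-29876249050365067597 / 6250223710937500)).horner hτ (17605645419806025424550994 / 9151460365860107421875)).horner hτ (-84240538038974222930438271 / 320301112805103759765625)).horner hτ (0)).congr rfl rfl (by simp [Pn]; norm_num) (by simp [Pn]; norm_num)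

theorem jG01 {τ : F} (hτ : τ ≠ 0) : Jet τ (88 + 3) (PP (PgB τ) m1) (1)
    ((676 / 5) + (-13 / 2) * Pn 1) ((3059240123258709 / 337318195900) + (-23920091 / 27320) * Pn 1 + (76568253203 / 3855065096) * Pn 1 ^ 2) :=
  ((((jPp hτ).pow 31).mul ((Jet.self hτ).pow 5)).mul ((jP0 hτ).pow 12)).congr rfl
    (by norm_num) (by simp [Pn]; norm_num) (by simp [Pn]; norm_num)

theorem jR02 {τ : F} (hτ : τ ≠ 0) : Jet τ (2 + 3) (Rl (PgA τ) (dPA τ) kA mu2 (t2 τ) (b2 τ) (hn 2)) (-5175625 / 7710130192)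
    ((-61210342375 / 10532037842272) + (-22214734609010125 / 7646259473489472) * Pn 2) ((-171548689774598825 / 7430763447198744608) + (19694670287564545 / 3823129736744736) * Pn 2 + (-22118238876339662875 / 10789468525332577170816) * Pn 2 ^ 2) := by
  have e : Rl (PgA τ) (dPA τ) kA mu2 (t2 τ) (b2 τ) (hn 2) =
      (((((-5175625 / 7710130192 : ℚ) : F) * τ ^ 2 + ((22170295900445875 / 7646259473489472 : ℚ) : F) * τ + ((-26387692651292635 / 5097506315659648 : ℚ) : F)) * τ + ((-623460229467393377180641 / 12283073558365063652352 : ℚ) : F)) * τ + ((-542539496816404403959435 / 9553501656506160618496 : ℚ) : F)) * τ + ((0 : ℚ) : F) := by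
    simp only [Ql, Rl, PgA, dPA, kA, mu2, t2, b2, hn2, P4, dP4, Pb, dPb, Pp, dPp, P0, dP0, PP, Dd, Matrix.cons_val_zero, Matrix.cons_val_one,
      Matrix.cons_val_two, Matrix.head_cons, Matrix.tail_cons, Pi.one_apply, Matrix.cons_val]
    push_cast; ring
  rw [e]
  exact ((((Jet.quad hτ (-5175625 / 7710130192) (22170295900445875 / 7646259473489472) (-26387692651292635 / 5097506315659648)).horner hτ (-623460229467393377180641 / 12283073558365063652352)).horner hτ (-542539496816404403959435 / 9553501656506160618496)).horner hτ (0)).congr rfl rfl (by simp [Pn]; norm_num) (by simp [Pn]; norm_num)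

theorem jQ02 {τ : F} (hτ : τ ≠ 0) : Jet τ (5 + 3) (Ql τ (PgA τ) (dPA τ) kA mu2 (t2 τ) (b2 τ) (hn 2)) (1)
    ((509483 / 47810) + (1 / 1366) * Pn 2) ((31148456163331 / 590306842825) + (7267 / 191240) * Pn 2 + (-181035673 / 963766274) * Pn 2 ^ 2) := by
  have e : Ql τ (PgA τ) (dPA τ) kA mu2 (t2 τ) (b2 τ) (hn 2) =
      ((((((((1 : ℚ) : F) * τ ^ 2 + ((254724 / 23905 : ℚ) : F) * τ + ((351675987 / 6693400 : ℚ) : F)) * τ + ((213113636889779327 / 696984946812000 : ℚ) : F)) * τ + ((7704299458823617 / 73922645874000 : ℚ) : F)) * τ + ((-9909835432417662352117 / 4976212312524203520 : ℚ) : F)) * τ + ((-514805068870837998750003 / 207342179688508480000 : ℚ) : F)) * τ + ((0 : ℚ) : F)) * τ + ((0 : ℚ) : F) := by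
    simp only [Ql, Rl, PgA, dPA, kA, mu2, t2, b2, hn2, P4, dP4, Pb, dPb, Pp, dPp, P0, dP0, PP, Dd, Matrix.cons_val_zero, Matrix.cons_val_one,
      Matrix.cons_val_two, Matrix.head_cons, Matrix.tail_cons, Pi.one_apply, Matrix.cons_val]
    push_cast; ring
  rw [e]
  exact (((((((Jet.quad hτ (1) (254724 / 23905) (351675987 / 6693400)).horner hτ (213113636889779327 / 696984946812000)).horner hτ (7704299458823617 / 73922645874000)).horner hτ (-9909835432417662352117 / 4976212312524203520)).horner hτ (-514805068870837998750003 / 207342179688508480000)).horner hτ (0)).horner hτ (0)).congr rfl rfl (by simp [Pn]; norm_num) (by simp [Pn]; norm_num)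

theorem jG02 {τ : F} (hτ : τ ≠ 0) : Jet τ (88 + 3) (PP (PgA τ) m2) (1)
    ((676 / 5) + (-13 / 2) * Pn 2) ((3059240123258709 / 337318195900) + (-23920091 / 27320) * Pn 2 + (76568253203 / 3855065096) * Pn 2 ^ 2) :=
  ((((Jet.self hτ).pow 14).mul ((jP4 hτ).pow 10)).mul ((jPb hτ).pow 37)).congr rfl
    (by norm_num) (by simp [Pn]; norm_num) (by simp [Pn]; norm_num)

theorem jR03 {τ : F} (hτ : τ ≠ 0) : Jet τ (2 + 3) (Rl (PgB τ) (dPB τ) kB mu3 (t3 τ) (b3 τ) (hn 3)) (-5175625 / 7710130192)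
    ((-61210342375 / 10532037842272) + (-22214734609010125 / 7646259473489472) * Pn 3) ((-171548689774598825 / 7430763447198744608) + (19694670287564545 / 3823129736744736) * Pn 3 + (-22118238876339662875 / 10789468525332577170816) * Pn 3 ^ 2) := by
  have e : Rl (PgB τ) (dPB τ) kB mu3 (t3 τ) (b3 τ) (hn 3) =
      (((((-5175625 / 7710130192 : ℚ) : F) * τ ^ 2 + ((824782057165885 / 57926208132496 : ℚ) : F) * τ + ((-1834030514177251 / 72407760165620 : ℚ) : F)) * τ + ((461767691956974280709 / 34618150135182922000 : ℚ) : F)) * τ + ((-33784273796946720177 / 15735522788719510000 : ℚ) : F)) * τ + ((0 : ℚ) : F) := by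
    simp only [Ql, Rl, PgB, dPB, kB, mu3, t3, b3, hn3, P4, dP4, Pb, dPb, Pp, dPp, P0, dP0, PP, Dd, Matrix.cons_val_zero, Matrix.cons_val_one,
      Matrix.cons_val_two, Matrix.head_cons, Matrix.tail_cons, Pi.one_apply, Matrix.cons_val]
    push_cast; ring
  rw [e]
  exact ((((Jet.quad hτ (-5175625 / 7710130192) (824782057165885 / 57926208132496) (-1834030514177251 / 72407760165620)).horner hτ (461767691956974280709 / 34618150135182922000)).horner hτ (-33784273796946720177 / 15735522788719510000)).horner hτ (0)).congr rfl rfl (by simp [Pn]; norm_num) (by simp [Pn]; norm_num)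

theorem jQ03 {τ : F} (hτ : τ ≠ 0) : Jet τ (5 + 3) (Ql τ (PgB τ) (dPB τ) kB mu3 (t3 τ) (b3 τ) (hn 3)) (1)
    ((509483 / 47810) + (1 / 1366) * Pn 3) ((31148456163331 / 590306842825) + (7267 / 191240) * Pn 3 + (-181035673 / 963766274) * Pn 3 ^ 2) := by
  have e : Ql τ (PgB τ) (dPB τ) kB mu3 (t3 τ) (b3 τ) (hn 3) =
      ((((((((1 : ℚ) : F) * τ ^ 2 + ((2546557 / 239050 : ℚ) : F) * τ + ((574495727 / 11952500 : ℚ) : F)) * τ + ((-4649519928624727 / 1428622562500 : ℚ) : F)) * τ + ((4958006646426065947 / 875031319531250 : ℚ) : F)) * τ + ((-122589471300573367420291 / 41835247386789062500 : ℚ) : F)) * τ + ((91791871906304238720909 / 209176236933945312500 : ℚ) : F)) * τ + ((0 : ℚ) : F)) * τ + ((0 : ℚ) : F) := by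
    simp only [Ql, Rl, PgB, dPB, kB, mu3, t3, b3, hn3, P4, dP4, Pb, dPb, Pp, dPp, P0, dP0, PP, Dd, Matrix.cons_val_zero, Matrix.cons_val_one,
      Matrix.cons_val_two, Matrix.head_cons, Matrix.tail_cons, Pi.one_apply, Matrix.cons_val]
    push_cast; ring
  rw [e]
  exact (((((((Jet.quad hτ (1) (2546557 / 239050) (574495727 / 11952500)).horner hτ (-4649519928624727 / 1428622562500)).horner hτ (4958006646426065947 / 875031319531250)).horner hτ (-122589471300573367420291 / 41835247386789062500)).horner hτ (91791871906304238720909 / 209176236933945312500)).horner hτ (0)).horner hτ (0)).congr rfl rfl (by simp [Pn]; norm_num) (by simp [Pn]; norm_num)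

theorem jG03 {τ : F} (hτ : τ ≠ 0) : Jet τ (88 + 3) (PP (PgB τ) m3) (1)
    ((676 / 5) + (-13 / 2) * Pn 3) ((3059240123258709 / 337318195900) + (-23920091 / 27320) * Pn 3 + (76568253203 / 3855065096) * Pn 3 ^ 2) :=
  ((((jPp hτ).pow 11).mul ((Jet.self hτ).pow 37)).mul ((jP0 hτ).pow 16)).congr rfl
    (by norm_num) (by simp [Pn]; norm_num) (by simp [Pn]; norm_num)

theorem jR10 {τ : F} (hτ : τ ≠ 0) : Jet τ (2 + 3) (Rl (PgA τ) (dPA τ) kA mu2 (t2 τ) (b2 τ) (hn 0)) (5175625 / 7710130192)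
    ((61210342375 / 10532037842272) + (-22214734609010125 / 7646259473489472) * Pn 0) ((171548689774598825 / 7430763447198744608) + (19694670287564545 / 3823129736744736) * Pn 0 + (22118238876339662875 / 10789468525332577170816) * Pn 0 ^ 2) := by
  have e : Rl (PgA τ) (dPA τ) kA mu2 (t2 τ) (b2 τ) (hn 0) =
      (((((5175625 / 7710130192 : ℚ) : F) * τ ^ 2 + ((-22170295900445875 / 7646259473489472 : ℚ) : F) * τ + ((26387692651292635 / 5097506315659648 : ℚ) : F)) * τ + ((623460229467393377180641 / 12283073558365063652352 : ℚ) : F)) * τ + ((542539496816404403959435 / 9553501656506160618496 : ℚ) : F)) * τ + ((0 : ℚ) : F) := by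
    simp only [Ql, Rl, PgA, dPA, kA, mu2, t2, b2, hn0, P4, dP4, Pb, dPb, Pp, dPp, P0, dP0, PP, Dd, Matrix.cons_val_zero, Matrix.cons_val_one,
      Matrix.cons_val_two, Matrix.head_cons, Matrix.tail_cons, Pi.one_apply, Matrix.cons_val]
    push_cast; ring
  rw [e]
  exact ((((Jet.quad hτ (5175625 / 7710130192) (-22170295900445875 / 7646259473489472) (26387692651292635 / 5097506315659648)).horner hτ (623460229467393377180641 / 12283073558365063652352)).horner hτ (542539496816404403959435 / 9553501656506160618496)).horner hτ (0)).congr rfl rfl (by simp [Pn]; norm_num) (by simp [Pn]; norm_num)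

theorem jQ10 {τ : F} (hτ : τ ≠ 0) : Jet τ (5 + 3) (Ql τ (PgA τ) (dPA τ) kA mu2 (t2 τ) (b2 τ) (hn 0)) (1)
    ((509483 / 47810) + (-1 / 1366) * Pn 0) ((31148456163331 / 590306842825) + (-7267 / 191240) * Pn 0 + (-181035673 / 963766274) * Pn 0 ^ 2) := by
  have e : Ql τ (PgA τ) (dPA τ) kA mu2 (t2 τ) (b2 τ) (hn 0) =
      ((((((((1 : ℚ) : F) * τ ^ 2 + ((254724 / 23905 : ℚ) : F) * τ + ((351675987 / 6693400 : ℚ) : F)) * τ + ((213113636889779327 / 696984946812000 : ℚ) : F)) * τ + ((7704299458823617 / 73922645874000 : ℚ) : F)) * τ + ((-9909835432417662352117 / 4976212312524203520 : ℚ) : F)) * τ + ((-514805068870837998750003 / 207342179688508480000 : ℚ) : F)) * τ + ((0 : ℚ) : F)) * τ + ((0 : ℚ) : F) := by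
    simp only [Ql, Rl, PgA, dPA, kA, mu2, t2, b2, hn0, P4, dP4, Pb, dPb, Pp, dPp, P0, dP0, PP, Dd, Matrix.cons_val_zero, Matrix.cons_val_one,
      Matrix.cons_val_two, Matrix.head_cons, Matrix.tail_cons, Pi.one_apply, Matrix.cons_val]
    push_cast; ring
  rw [e]
  exact (((((((Jet.quad hτ (1) (254724 / 23905) (351675987 / 6693400)).horner hτ (213113636889779327 / 696984946812000)).horner hτ (7704299458823617 / 73922645874000)).horner hτ (-9909835432417662352117 / 4976212312524203520)).horner hτ (-514805068870837998750003 / 207342179688508480000)).horner hτ (0)).horner hτ (0)).congr rfl rfl (by simp [Pn]; norm_num) (by simp [Pn]; norm_num)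

theorem jG10 {τ : F} (hτ : τ ≠ 0) : Jet τ (88 + 3) (PP (PgA τ) m2) (1)
    ((676 / 5) + (13 / 2) * Pn 0) ((3059240123258709 / 337318195900) + (23920091 / 27320) * Pn 0 + (76568253203 / 3855065096) * Pn 0 ^ 2) :=
  ((((Jet.self hτ).pow 14).mul ((jP4 hτ).pow 10)).mul ((jPb hτ).pow 37)).congr rfl
    (by norm_num) (by simp [Pn]; norm_num) (by simp [Pn]; norm_num)

theorem jR11 {τ : F} (hτ : τ ≠ 0) : Jet τ (2 + 3) (Rl (PgB τ) (dPB τ) kB mu3 (t3 τ) (b3 τ) (hn 1)) (5175625 / 7710130192)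
    ((61210342375 / 10532037842272) + (-22214734609010125 / 7646259473489472) * Pn 1) ((171548689774598825 / 7430763447198744608) + (19694670287564545 / 3823129736744736) * Pn 1 + (22118238876339662875 / 10789468525332577170816) * Pn 1 ^ 2) := by
  have e : Rl (PgB τ) (dPB τ) kB mu3 (t3 τ) (b3 τ) (hn 1) =
      (((((5175625 / 7710130192 : ℚ) : F) * τ ^ 2 + ((-824782057165885 / 57926208132496 : ℚ) : F) * τ + ((1834030514177251 / 72407760165620 : ℚ) : F)) * τ + ((-461767691956974280709 / 34618150135182922000 : ℚ) : F)) * τ + ((33784273796946720177 / 15735522788719510000 : ℚ) : F)) * τ + ((0 : ℚ) : F) := by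
    simp only [Ql, Rl, PgB, dPB, kB, mu3, t3, b3, hn1, P4, dP4, Pb, dPb, Pp, dPp, P0, dP0, PP, Dd, Matrix.cons_val_zero, Matrix.cons_val_one,
      Matrix.cons_val_two, Matrix.head_cons, Matrix.tail_cons, Pi.one_apply, Matrix.cons_val]
    push_cast; ring
  rw [e]
  exact ((((Jet.quad hτ (5175625 / 7710130192) (-824782057165885 / 57926208132496) (1834030514177251 / 72407760165620)).horner hτ (-461767691956974280709 / 34618150135182922000)).horner hτ (33784273796946720177 / 15735522788719510000)).horner hτ (0)).congr rfl rfl (by simp [Pn]; norm_num) (by simp [Pn]; norm_num)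

theorem jQ11 {τ : F} (hτ : τ ≠ 0) : Jet τ (5 + 3) (Ql τ (PgB τ) (dPB τ) kB mu3 (t3 τ) (b3 τ) (hn 1)) (1)
    ((509483 / 47810) + (-1 / 1366) * Pn 1) ((31148456163331 / 590306842825) + (-7267 / 191240) * Pn 1 + (-181035673 / 963766274) * Pn 1 ^ 2) := by
  have e : Ql τ (PgB τ) (dPB τ) kB mu3 (t3 τ) (b3 τ) (hn 1) =
      ((((((((1 : ℚ) : F) * τ ^ 2 + ((2546557 / 239050 : ℚ) : F) * τ + ((574495727 / 11952500 : ℚ) : F)) * τ + ((-4649519928624727 / 1428622562500 : ℚ) : F)) * τ + ((4958006646426065947 / 875031319531250 : ℚ) : F)) * τ + ((-122589471300573367420291 / 41835247386789062500 : ℚ) : F)) * τ + ((91791871906304238720909 / 209176236933945312500 : ℚ) : F)) * τ + ((0 : ℚ) : F)) * τ + ((0 : ℚ) : F) := by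
    simp only [Ql, Rl, PgB, dPB, kB, mu3, t3, b3, hn1, P4, dP4, Pb, dPb, Pp, dPp, P0, dP0, PP, Dd, Matrix.cons_val_zero, Matrix.cons_val_one,
      Matrix.cons_val_two, Matrix.head_cons, Matrix.tail_cons, Pi.one_apply, Matrix.cons_val]
    push_cast; ring
  rw [e]
  exact (((((((Jet.quad hτ (1) (2546557 / 239050) (574495727 / 11952500)).horner hτ (-4649519928624727 / 1428622562500)).horner hτ (4958006646426065947 / 875031319531250)).horner hτ (-122589471300573367420291 / 41835247386789062500)).horner hτ (91791871906304238720909 / 209176236933945312500)).horner hτ (0)).horner hτ (0)).congr rfl rfl (by simp [Pn]; norm_num) (by simp [Pn]; norm_num)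

theorem jG11 {τ : F} (hτ : τ ≠ 0) : Jet τ (88 + 3) (PP (PgB τ) m3) (1)
    ((676 / 5) + (13 / 2) * Pn 1) ((3059240123258709 / 337318195900) + (23920091 / 27320) * Pn 1 + (76568253203 / 3855065096) * Pn 1 ^ 2) :=
  ((((jPp hτ).pow 11).mul ((Jet.self hτ).pow 37)).mul ((jP0 hτ).pow 16)).congr rfl
    (by norm_num) (by simp [Pn]; norm_num) (by simp [Pn]; norm_num)

theorem jR12 {τ : F} (hτ : τ ≠ 0) : Jet τ (2 + 3) (Rl (PgA τ) (dPA τ) kA mu0 (t0 τ) (b0 τ) (hn 2)) (5175625 / 7710130192)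
    ((61210342375 / 10532037842272) + (-22214734609010125 / 7646259473489472) * Pn 2) ((171548689774598825 / 7430763447198744608) + (19694670287564545 / 3823129736744736) * Pn 2 + (22118238876339662875 / 10789468525332577170816) * Pn 2 ^ 2) := by
  have e : Rl (PgA τ) (dPA τ) kA mu0 (t0 τ) (b0 τ) (hn 2) =
      (((((5175625 / 7710130192 : ℚ) : F) * τ ^ 2 + ((32590297683125 / 11195109038784 : ℚ) : F) * τ + ((-78394284346638455 / 15292518946978944 : ℚ) : F)) * τ + ((-101193695385268103683 / 1998222475738582016 : ℚ) : F)) * τ + ((-396496587198346702041 / 6993778665085037056 : ℚ) : F)) * τ + ((0 : ℚ) : F) := by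
    simp only [Ql, Rl, PgA, dPA, kA, mu0, t0, b0, hn2, P4, dP4, Pb, dPb, Pp, dPp, P0, dP0, PP, Dd, Matrix.cons_val_zero, Matrix.cons_val_one,
      Matrix.cons_val_two, Matrix.head_cons, Matrix.tail_cons, Pi.one_apply, Matrix.cons_val]
    push_cast; ring
  rw [e]
  exact ((((Jet.quad hτ (5175625 / 7710130192) (32590297683125 / 11195109038784) (-78394284346638455 / 15292518946978944)).horner hτ (-101193695385268103683 / 1998222475738582016)).horner hτ (-396496587198346702041 / 6993778665085037056)).horner hτ (0)).congr rfl rfl (by simp [Pn]; norm_num) (by simp [Pn]; norm_num)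

theorem jQ12 {τ : F} (hτ : τ ≠ 0) : Jet τ (5 + 3) (Ql τ (PgA τ) (dPA τ) kA mu0 (t0 τ) (b0 τ) (hn 2)) (1)
    ((509483 / 47810) + (-1 / 1366) * Pn 2) ((31148456163331 / 590306842825) + (-7267 / 191240) * Pn 2 + (-181035673 / 963766274) * Pn 2 ^ 2) := by
  have e : Ql τ (PgA τ) (dPA τ) kA mu0 (t0 τ) (b0 τ) (hn 2) =
      ((((((((1 : ℚ) : F) * τ ^ 2 + ((373 / 35 : ℚ) : F) * τ + ((352184677 / 6693400 : ℚ) : F)) * τ + ((312636500255209 / 1020475764000 : ℚ) : F)) * τ + ((104141735526112037 / 975778925536800 : ℚ) : F)) * τ + ((-217021759158828189761 / 109287239660121600 : ℚ) : F)) * τ + ((-376163428880482768603 / 151787832861280000 : ℚ) : F)) * τ + ((0 : ℚ) : F)) * τ + ((0 : ℚ) : F) := by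
    simp only [Ql, Rl, PgA, dPA, kA, mu0, t0, b0, hn2, P4, dP4, Pb, dPb, Pp, dPp, P0, dP0, PP, Dd, Matrix.cons_val_zero, Matrix.cons_val_one,
      Matrix.cons_val_two, Matrix.head_cons, Matrix.tail_cons, Pi.one_apply, Matrix.cons_val]
    push_cast; ring
  rw [e]
  exact (((((((Jet.quad hτ (1) (373 / 35) (352184677 / 6693400)).horner hτ (312636500255209 / 1020475764000)).horner hτ (104141735526112037 / 975778925536800)).horner hτ (-217021759158828189761 / 109287239660121600)).horner hτ (-376163428880482768603 / 151787832861280000)).horner hτ (0)).horner hτ (0)).congr rfl rfl (by simp [Pn]; norm_num) (by simp [Pn]; norm_num)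

theorem jG12 {τ : F} (hτ : τ ≠ 0) : Jet τ (88 + 3) (PP (PgA τ) m0) (1)
    ((676 / 5) + (13 / 2) * Pn 2) ((3059240123258709 / 337318195900) + (23920091 / 27320) * Pn 2 + (76568253203 / 3855065096) * Pn 2 ^ 2) :=
  ((((Jet.self hτ).pow 21).mul ((jP4 hτ).pow 9)).mul ((jPb hτ).pow 34)).congr rfl
    (by norm_num) (by simp [Pn]; norm_num) (by simp [Pn]; norm_num)

theorem jR13 {τ : F} (hτ : τ ≠ 0) : Jet τ (2 + 3) (Rl (PgB τ) (dPB τ) kB mu1 (t1 τ) (b1 τ) (hn 3)) (5175625 / 7710130192)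
    ((61210342375 / 10532037842272) + (-22214734609010125 / 7646259473489472) * Pn 3) ((171548689774598825 / 7430763447198744608) + (19694670287564545 / 3823129736744736) * Pn 3 + (22118238876339662875 / 10789468525332577170816) * Pn 3 ^ 2) := by
  have e : Rl (PgB τ) (dPB τ) kB mu1 (t1 τ) (b1 τ) (hn 3) =
      (((((5175625 / 7710130192 : ℚ) : F) * τ ^ 2 + ((604286508735 / 42405716056 : ℚ) : F) * τ + ((-3647102221312329 / 144815520331240 : ℚ) : F)) * τ + ((156223790113837381 / 7240776016562000 : ℚ) : F)) * τ + ((-2426728729571556627321 / 275371648802591425000 : ℚ) : F)) * τ + ((31004982715853596956363 / 24095019270226749687500 : ℚ) : F) := by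
    simp only [Ql, Rl, PgB, dPB, kB, mu1, t1, b1, hn3, P4, dP4, Pb, dPb, Pp, dPp, P0, dP0, PP, Dd, Matrix.cons_val_zero, Matrix.cons_val_one,
      Matrix.cons_val_two, Matrix.head_cons, Matrix.tail_cons, Pi.one_apply, Matrix.cons_val]
    push_cast; ring
  rw [e]
  exact ((((Jet.quad hτ (5175625 / 7710130192) (604286508735 / 42405716056) (-3647102221312329 / 144815520331240)).horner hτ (156223790113837381 / 7240776016562000)).horner hτ (-2426728729571556627321 / 275371648802591425000)).horner hτ (31004982715853596956363 / 24095019270226749687500)).congr rfl rfl (by simp [Pn]; norm_num) (by simp [Pn]; norm_num)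

theorem jQ13 {τ : F} (hτ : τ ≠ 0) : Jet τ (5 + 3) (Ql τ (PgB τ) (dPB τ) kB mu1 (t1 τ) (b1 τ) (hn 3)) (1)
    ((509483 / 47810) + (-1 / 1366) * Pn 3) ((31148456163331 / 590306842825) + (-7267 / 191240) * Pn 3 + (-181035673 / 963766274) * Pn 3 ^ 2) := by
  have e : Ql τ (PgB τ) (dPB τ) kB mu1 (t1 τ) (b1 τ) (hn 3) =
      ((((((((1 : ℚ) : F) * τ ^ 2 + ((533 / 50 : ℚ) : F) * τ + ((4052645519 / 83667500 : ℚ) : F)) * τ + ((-11895998318048 / 3660453125 : ℚ) : F)) * τ + ((2480069584770759839 / 437515659765625 : ℚ) : F)) * τ + ((-29876249050365067597 / 6250223710937500 : ℚ) : F)) * τ + ((17605645419806025424550994 / 9151460365860107421875 : ℚ) : F)) * τ + ((-84240538038974222930438271 / 320301112805103759765625 : ℚ) : F)) * τ + ((0 : ℚ) : F) := by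
    simp only [Ql, Rl, PgB, dPB, kB, mu1, t1, b1, hn3, P4, dP4, Pb, dPb, Pp, dPp, P0, dP0, PP, Dd, Matrix.cons_val_zero, Matrix.cons_val_one,
      Matrix.cons_val_two, Matrix.head_cons, Matrix.tail_cons, Pi.one_apply, Matrix.cons_val]
    push_cast; ring
  rw [e]
  exact (((((((Jet.quad hτ (1) (533 / 50) (4052645519 / 83667500)).horner hτ (-11895998318048 / 3660453125)).horner hτ (2480069584770759839 / 437515659765625)).horner hτ (-29876249050365067597 / 6250223710937500)).horner hτ (17605645419806025424550994 / 9151460365860107421875)).horner hτ (-84240538038974222930438271 / 320301112805103759765625)).horner hτ (0)).congr rfl rfl (by simp [Pn]; norm_num) (by simp [Pn]; norm_num)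

theorem jG13 {τ : F} (hτ : τ ≠ 0) : Jet τ (88 + 3) (PP (PgB τ) m1) (1)
    ((676 / 5) + (13 / 2) * Pn 3) ((3059240123258709 / 337318195900) + (23920091 / 27320) * Pn 3 + (76568253203 / 3855065096) * Pn 3 ^ 2) :=
  ((((jPp hτ).pow 31).mul ((Jet.self hτ).pow 5)).mul ((jP0 hτ).pow 12)).congr rfl
    (by norm_num) (by simp [Pn]; norm_num) (by simp [Pn]; norm_num)

theorem copA01 (τ : F) : ∃ a ∈ A1 τ, ∃ b ∈ A1 τ, a * PgA τ 0 + b * PgA τ 1 = 1 :=
  ⟨(((-9757789255368000 / 782044550687074363 : ℚ) : F) * τ ^ 2 + ((-5994070542583200 / 60157273129774951 : ℚ) : F) * τ + ((-1707964454916720 / 4627482548444227 : ℚ) : F)) * τ + ((-59942390924926720 / 60157273129774951 : ℚ) : F), by amem,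
    ((9757789255368000 / 782044550687074363 : ℚ) : F), by amem, by
    simp only [PgA, P4, Pb, Pp, P0, Matrix.cons_val_zero, Matrix.cons_val_one,
      Matrix.cons_val_two, Matrix.head_cons, Matrix.tail_cons, Matrix.cons_val]
    push_cast; ring⟩

theorem copA02 (τ : F) : ∃ a ∈ A1 τ, ∃ b ∈ A1 τ, a * PgA τ 0 + b * PgA τ 2 = 1 :=
  ⟨((-70 / 117 : ℚ) : F), by amem,
    ((70 / 117 : ℚ) : F), by amem, by
    simp only [PgA, P4, Pb, Pp, P0, Matrix.cons_val_zero, Matrix.cons_val_one,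
      Matrix.cons_val_two, Matrix.head_cons, Matrix.tail_cons, Matrix.cons_val]
    push_cast; ring⟩

theorem copA12 (τ : F) : ∃ a ∈ A1 τ, ∃ b ∈ A1 τ, a * PgA τ 1 + b * PgA τ 2 = 1 :=
  ⟨((-1393969893624000 / 247833437525063 : ℚ) : F), by amem,
    (((1393969893624000 / 247833437525063 : ℚ) : F) * τ ^ 2 + ((677071091188800 / 19064110578851 : ℚ) : F) * τ + ((156942924692400 / 1466470044527 : ℚ) : F)) * τ + ((5153053154173240 / 19064110578851 : ℚ) : F), by amem, by
    simp only [PgA, P4, Pb, Pp, P0, Matrix.cons_val_zero, Matrix.cons_val_one,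
      Matrix.cons_val_two, Matrix.head_cons, Matrix.tail_cons, Matrix.cons_val]
    push_cast; ring⟩

theorem copB01 (τ : F) : ∃ a ∈ A1 τ, ∃ b ∈ A1 τ, a * PgB τ 0 + b * PgB τ 1 = 1 :=
  ⟨((20916875 / 12252669 : ℚ) : F), by amem,
    ((-20916875 / 12252669 : ℚ) : F) * τ + ((119525 / 72501 : ℚ) : F), by amem, by
    simp only [PgB, P4, Pb, Pp, P0, Matrix.cons_val_zero, Matrix.cons_val_one,
      Matrix.cons_val_two, Matrix.head_cons, Matrix.tail_cons, Matrix.cons_val]
    push_cast; ring⟩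

theorem copB02 (τ : F) : ∃ a ∈ A1 τ, ∃ b ∈ A1 τ, a * PgB τ 0 + b * PgB τ 2 = 1 :=
  ⟨((200007158750 / 59602228471773 : ℚ) : F) * τ + ((102398143225 / 4584786805521 : ℚ) : F), by amem,
    ((-200007158750 / 59602228471773 : ℚ) : F) * τ + ((27774263300 / 1528262268507 : ℚ) : F), by amem, by
    simp only [PgB, P4, Pb, Pp, P0, Matrix.cons_val_zero, Matrix.cons_val_one,
      Matrix.cons_val_two, Matrix.head_cons, Matrix.tail_cons, Matrix.cons_val]
    push_cast; ring⟩

theorem copB12 (τ : F) : ∃ a ∈ A1 τ, ∃ b ∈ A1 τ, a * PgB τ 1 + b * PgB τ 2 = 1 :=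
  ⟨((-41833750 / 2271761713 : ℚ) : F) * τ + ((-2749075 / 13442377 : ℚ) : F), by amem,
    ((41833750 / 2271761713 : ℚ) : F), by amem, by
    simp only [PgB, P4, Pb, Pp, P0, Matrix.cons_val_zero, Matrix.cons_val_one,
      Matrix.cons_val_two, Matrix.head_cons, Matrix.tail_cons, Matrix.cons_val]
    push_cast; ring⟩

theorem cop_symm {τ P Q : F} (h : ∃ a ∈ A1 τ, ∃ b ∈ A1 τ, a * P + b * Q = 1) :
    ∃ a ∈ A1 τ, ∃ b ∈ A1 τ, a * Q + b * P = 1 := by
  obtain ⟨a, ha, b, hb, e⟩ := h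
  exact ⟨b, hb, a, ha, by rw [add_comm, e]⟩

theorem copA (τ : F) (g g' : Fin 3) (h : g' ≠ g) :
    ∃ a ∈ A1 τ, ∃ b ∈ A1 τ, a * PgA τ g + b * PgA τ g' = 1 := by
  fin_cases g <;> fin_cases g' <;> first
    | exact absurd rfl h
    | exact copA01 τ | exact copA02 τ | exact copA12 τ
    | exact cop_symm (copA01 τ) | exact cop_symm (copA02 τ) | exact cop_symm (copA12 τ)

theorem copB (τ : F) (g g' : Fin 3) (h : g' ≠ g) :
    ∃ a ∈ A1 τ, ∃ b ∈ A1 τ, a * PgB τ g + b * PgB τ g' = 1 := by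
  fin_cases g <;> fin_cases g' <;> first
    | exact absurd rfl h
    | exact copB01 τ | exact copB02 τ | exact copB12 τ
    | exact cop_symm (copB01 τ) | exact cop_symm (copB02 τ) | exact cop_symm (copB12 τ)

def TPg (τ : F) : Fin 4 → Fin 3 → F := ![PgA τ, PgB τ, PgA τ, PgB τ]
def TdP (τ : F) : Fin 4 → Fin 3 → F := ![dPA τ, dPB τ, dPA τ, dPB τ]
def Tk : Fin 4 → Fin 3 → ℕ := ![kA, kB, kA, kB]
def Tmu : Fin 2 → Fin 4 → Fin 3 → ℕ := ![![mu0, mu1, mu2, mu3], ![mu2, mu3, mu0, mu1]]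
def Tm : Fin 2 → Fin 4 → Fin 3 → ℕ := ![![m0, m1, m2, m3], ![m2, m3, m0, m1]]
def Tt (τ : F) : Fin 2 → Fin 4 → F := ![![t0 τ, t1 τ, t2 τ, t3 τ], ![t2 τ, t3 τ, t0 τ, t1 τ]]
def Tb (τ : F) : Fin 2 → Fin 4 → F := ![![b0 τ, b1 τ, b2 τ, b3 τ], ![b2 τ, b3 τ, b0 τ, b1 τ]]

def data {τ w : F} (hτ : τ ≠ 0) (hw : w ≠ 0) : Data τ w where
  Pg := TPg τ
  dP := TdP τ
  dg := ![![1, 4, 1], ![2, 1, 2], ![1, 4, 1], ![2, 1, 2]]
  k := Tk
  mu := Tmu
  m := Tm
  z := ![0, 1, 0, 1]
  t := Tt τ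
  b := Tb τ
  Qh i := hat w fun ν => Ql τ (TPg τ ν) (TdP τ ν) (Tk ν) (Tmu i ν) (Tt τ i ν) (Tb τ i ν) (hn ν)
  Rh i := hat w fun ν => Rl (TPg τ ν) (TdP τ ν) (Tk ν) (Tmu i ν) (Tt τ i ν) (Tb τ i ν) (hn ν)
  Gh i := hat w fun ν => PP (TPg τ ν) (Tm i ν)
  κ := ![(169 / 683), (-145002 / 119525), (-169 / 683), (145002 / 119525)]
  e := ![![490, 13, 966, 897], ![966, 897, 490, 13]]
  ea := 2730
  eb := 81718
  ec := 3458
  L := 80444
  Pjet ν g := by
    fin_cases ν <;> fin_cases g <;> first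
      | exact ⟨_, _, Jet.self hτ⟩ | exact ⟨_, _, jP4 hτ⟩ | exact ⟨_, _, jPb hτ⟩
      | exact ⟨_, _, jPp hτ⟩ | exact ⟨_, _, jP0 hτ⟩
  dPT ν g := by
    fin_cases ν <;> fin_cases g <;> first
      | exact one_mem _ | exact dP4_mem τ | exact dPb_mem τ | exact dPp_mem τ | exact dP0_mem τ
  hdP η ν g := by
    fin_cases ν <;> fin_cases g <;> first
      | exact (one_mul _).symm | exact dP4_eq η τ | exact dPb_eq η τ | exact dPp_eq η τ
      | exact dP0_eq η τ
  cop ν := by
    fin_cases ν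
    exacts [copA τ, copB τ, copA τ, copB τ]
  hz ν := by fin_cases ν <;> rfl
  tT i ν := by
    have h0 : t0 τ ∈ A1 τ := by unfold t0; amem
    have h1 : t1 τ ∈ A1 τ := by unfold t1; amem
    have h2 : t2 τ ∈ A1 τ := by unfold t2; amem
    have h3 : t3 τ ∈ A1 τ := by unfold t3; amem
    fin_cases i <;> fin_cases ν
    exacts [h0, h1, h2, h3, h2, h3, h0, h1]
  bT i ν := by
    have h0 : b0 τ ∈ A1 τ := by unfold b0; amem
    have h1 : b1 τ ∈ A1 τ := by unfold b1; amem
    have h2 : b2 τ ∈ A1 τ := by unfold b2; amem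
    have h3 : b3 τ ∈ A1 τ := by unfold b3; amem
    fin_cases i <;> fin_cases ν
    exacts [h0, h1, h2, h3, h2, h3, h0, h1]
  hQ i := by
    fin_cases i
    · refine Pl_hat (d := 5) hτ hw (1) (509483 / 47810) (1 / 1366) (31148456163331 / 590306842825) (7267 / 191240) (-181035673 / 963766274) fun ν => ?_
      fin_cases ν
      exacts [jQ00 hτ, jQ01 hτ, jQ02 hτ, jQ03 hτ]
    · refine Pl_hat (d := 5) hτ hw (1) (509483 / 47810) (-1 / 1366) (31148456163331 / 590306842825) (-7267 / 191240) (-181035673 / 963766274) fun ν => ?_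
      fin_cases ν
      exacts [jQ10 hτ, jQ11 hτ, jQ12 hτ, jQ13 hτ]
  hR i := by
    fin_cases i
    · refine Pl_hat (d := 2) hτ hw (-5175625 / 7710130192) (-61210342375 / 10532037842272) (-22214734609010125 / 7646259473489472) (-171548689774598825 / 7430763447198744608) (19694670287564545 / 3823129736744736) (-22118238876339662875 / 10789468525332577170816) fun ν => ?_
      fin_cases ν
      exacts [jR00 hτ, jR01 hτ, jR02 hτ, jR03 hτ]
    · refine Pl_hat (d := 2) hτ hw (5175625 / 7710130192) (61210342375 / 10532037842272) (-22214734609010125 / 7646259473489472) (171548689774598825 / 7430763447198744608) (19694670287564545 / 3823129736744736) (22118238876339662875 / 10789468525332577170816) fun ν => ?_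
      fin_cases ν
      exacts [jR10 hτ, jR11 hτ, jR12 hτ, jR13 hτ]
  hG i := by
    fin_cases i
    · refine Pl_hat (d := 88) hτ hw (1) (676 / 5) (-13 / 2) (3059240123258709 / 337318195900) (-23920091 / 27320) (76568253203 / 3855065096) fun ν => ?_
      fin_cases ν
      exacts [jG00 hτ, jG01 hτ, jG02 hτ, jG03 hτ]
    · refine Pl_hat (d := 88) hτ hw (1) (676 / 5) (13 / 2) (3059240123258709 / 337318195900) (23920091 / 27320) (76568253203 / 3855065096) fun ν => ?_
      fin_cases ν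
      exacts [jG10 hτ, jG11 hτ, jG12 hτ, jG13 hτ]
  hκ ν := by
    fin_cases ν <;> simp [Tt, Tb, t0, t1, t2, t3, b0, b1, b2, b3] <;> ring
  κ0 ν := by fin_cases ν <;> simp
  mu1 := by decide
  mk' := by decide
  muk := by decide
  mtk := by decide
  mtd := by decide
  hdeg := by decide
  hL := by decide
  hexp := by decide
  hexpO := by decide
  e0 := by decide
  ram0 := ⟨((1 : ℚ) : F) * τ + ((682 / 683 : ℚ) : F), by amem, by simp [Tt, t2]; ring⟩
  ram2 := ⟨((1 : ℚ) : F) * τ + ((682 / 683 : ℚ) : F), by amem, by simp [Tt, t2]; ring⟩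

end Crest.Agent.H4.ZL
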